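import Vale.Agent.P137.Core.Layer
import Vale.Agent.P137.Core.Assembly
import Vale.Agent.P137.Passage
import Vale.Agent.P137.Triple
import Vale.Agent.P137.Centred.Passage.Main
import Vale.Agent.P137.Centred.Core.Main
import Vale.Agent.P137.Centred.Outer.Main

/-!
The centred Hardy-Littlewood maximal operator maps `W^{1,1}` to functions with an integrable
weak gradient, with a bound by the gradient of the input, in every dimension.
-/

open MeasureTheory Metric
open scoped ENNReal

namespace Vale.Agent.Results.P137.CentredMaximalW11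

open Vale.Agent.P137 Vale.Agent.P137.Centred

theorem result : ∀ d : ℕ, 1 ≤ d → ∃ C : ℝ,
    ∀ (f : EuclideanSpace ℝ (Fin d) → ℝ) (G : Fin d → EuclideanSpace ℝ (Fin d) → ℝ),
      Integrable f → (∀ i, Integrable (G i)) → IsWeakGrad f G →
        (∀ᵐ x, cmaxFun f x < ⊤) ∧
        LocallyIntegrable (fun x => (cmaxFun f x).toReal) ∧
        ∃ H : Fin d → EuclideanSpace ℝ (Fin d) → ℝ, (∀ i, Integrable (H i)) ∧
          IsWeakGrad (fun x => (cmaxFun f x).toReal) H ∧
          ∑ i, ∫ x, |H i x| ≤ C * ∑ i, ∫ x, |G i x| :=
  Vale.Agent.P137.Centred.passage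
    (Vale.Agent.P137.passage tailVanish
      (coreBound_of_layer (layerBound_of shellBound classCover classSum) tripleBound))
    (fun _ hd => mainEst_of hd (coreEst hd))
    (fun d _ => cmassFacts d)

end Vale.Agent.Results.P137.CentredMaximalW11
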