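import Vale.Agent.P137.Core.Layer
import Vale.Agent.P137.Core.Assembly
import Vale.Agent.P137.Passage
import Vale.Agent.P137.Triple

/-!
The uncentred Hardy-Littlewood maximal operator maps `W^{1,1}` to functions with an integrable
weak gradient, with a bound by the gradient of the input, in every dimension.
-/

open MeasureTheory Metric
open scoped ENNReal

namespace Vale.Agent.Results.P137.UncenteredMaximalW11

open Vale.Agent.P137

theorem result : ∀ d : ℕ, 1 ≤ d → ∃ C : ℝ,
    ∀ (f : EuclideanSpace ℝ (Fin d) → ℝ) (G : Fin d → EuclideanSpace ℝ (Fin d) → ℝ),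
      Integrable f → (∀ i, Integrable (G i)) → IsWeakGrad f G →
        (∀ᵐ x, maxFun f x < ⊤) ∧
        LocallyIntegrable (fun x => (maxFun f x).toReal) ∧
        ∃ H : Fin d → EuclideanSpace ℝ (Fin d) → ℝ, (∀ i, Integrable (H i)) ∧
          IsWeakGrad (fun x => (maxFun f x).toReal) H ∧
          ∑ i, ∫ x, |H i x| ≤ C * ∑ i, ∫ x, |G i x| :=
  passage tailVanish
    (coreBound_of_layer (layerBound_of shellBound classCover classSum) tripleBound)

end Vale.Agent.Results.P137.UncenteredMaximalW11
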